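import Vale.Agent.P181.SZN2.Tools
import Vale.Agent.P181.H503.CaseR

set_option autoImplicit false

/-!
# P181, SZ: **(N3)** `LBR` from `DecBn` and `LB7k`
-/

namespace Vale.Agent.P181.SZN3R

open Finset
open Vale.Agent.P181.T4 Vale.Agent.P181.T7 Vale.Agent.P181.T9 Vale.Agent.P181.H280
open Vale.Agent.P181.H463 Vale.Agent.P181.H699.CC Vale.Agent.P181.SZN2

/-- **(N3)** -/
theorem lbr_of (hLB : H503.LB7k) (hDec : SZ.DecBn) : SZ.LBR := by
  intro a b n J R0 R1 m k0 N T lam hlam hsum hm3 hm hR hRn hnJ hJN h2 h3 h4' h5 h6 h8 hcount htop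
  have h4 : k0 ≤ a := by omega
  have hR3 : 3 ≤ R0 := by omega
  have hR0c : R0 ≤ R0 ^ 3 := by
    calc R0 = R0 ^ 1 := (pow_one _).symm
      _ ≤ R0 ^ 3 := Nat.pow_le_pow_right (by omega) (by norm_num)
  have hR02 : R0 ^ 2 ≤ R0 ^ 3 := Nat.pow_le_pow_right (by omega) (by norm_num)
  have hRa : R0 < a := by omega
  have ha : 0 < a := by omega
  have hN : 0 < N := lt_of_lt_of_le (Nat.mul_pos ha (by omega)) h5
  have haN : a ≤ N := by
    refine le_trans ?_ h5
    exact Nat.le_mul_of_pos_right _ (by omega)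
  obtain ⟨A, hA⟩ : ∃ A, A = 20 * N * (k0 + 2 * R0) := ⟨_, rfl⟩
  have hAe : A = 20 * (N * k0) + 40 * (N * R0) := by
    rw [hA]
    ring
  have eNR : 2000 * (N * R0) ≤ N * k0 := by
    calc 2000 * (N * R0) = N * (2000 * R0) := by ring
      _ ≤ N * k0 := Nat.mul_le_mul_left _ (by omega)
  have hAN : A ≤ 21 * (N * k0) := by omega
  obtain ⟨e, he⟩ : ∃ e : ℕ → ℕ, ∀ j, e j = if j = R1 then A else 0 := ⟨_, fun _ => rfl⟩
  have hμa : Antitone (ex lam) := fun s t hst => ex_anti hlam hst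
  have heR : e R1 = A := by rw [he, if_pos rfl]
  have heg : ∀ j, 1 ≤ j → j ≤ R0 → e j + ex lam j ≤ ex lam (j - 1) := by
    intro j _ _
    have f0 : ex lam j ≤ ex lam (j - 1) := hμa (Nat.sub_le _ _)
    rw [he]
    split_ifs with g1
    · subst g1
      rw [← hA] at h2
      omega
    · omega
  have hE : ∑ j ∈ Icc 1 R0, e j = A := by
    simp only [he]
    rw [Finset.sum_ite_eq', if_pos (by rw [mem_Icc]; omega)]
  have hk0R : 2 * R0 ≤ k0 := by omega
  have hroom := dec_room (e := e) (le_of_eq hE) hAN hR3 hk0R hN h6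
  have hX1 : R0 ≤ 50 * R0 * N := by
    calc R0 = R0 * 1 := (Nat.mul_one _).symm
      _ ≤ (50 * R0) * N := Nat.mul_le_mul (by omega) hN
  have hX2 : (R0 + 1) * (50 * R0 * N) ≤ 2 * b := by
    refine le_trans (le_of_eq ?_) h8
    ring
  have hstore : (k0 + 2 * R0) * R0 ≤ ∑ j ∈ Icc 1 R0, j * e j := by
    have f1 : R1 * e R1 ≤ ∑ j ∈ Icc 1 R0, j * e j :=
      Finset.single_le_sum (f := fun j => j * e j) (fun _ _ => Nat.zero_le _)
        (by rw [mem_Icc]; omega)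
    refine le_trans ?_ f1
    rw [heR, hA]
    have f2 : R0 ≤ N := by
      refine le_trans ?_ h5
      calc R0 ≤ 1 * (R0 + 1) := by omega
        _ ≤ a * (R0 + 1) := Nat.mul_le_mul_right _ ha
    calc (k0 + 2 * R0) * R0 ≤ (k0 + 2 * R0) * N := Nat.mul_le_mul_left _ f2
      _ = 1 * (1 * (N * (k0 + 2 * R0))) := by ring
      _ ≤ R1 * (20 * (N * (k0 + 2 * R0))) :=
          Nat.mul_le_mul (by omega) (Nat.mul_le_mul_right _ (by norm_num))
      _ = R1 * (20 * N * (k0 + 2 * R0)) := by ring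
  obtain ⟨B, k, mu, hmu, hsmu, hk1, hk2, hka, heq, hgap, hle⟩ := hDec a b n R0 (50 * R0 * N) k0 e
    lam hlam hsum (by omega) hRn hRa hk0R h4 hX1 heg hroom hX2 hstore
  clear hroom hX1 hX2 hstore heg
  have hνtel : ∀ i ≤ R0, ex mu i ≤ ex mu R0 + (∑ j ∈ Ioc i R0, e j + 2 * a * (R0 - i)) :=
    fun i hi => tel_le (ex mu) e (2 * a) R0 i hi fun j e1 e2 => (hgap j (by omega) e2).2
  have hνR0 : ex mu R0 = ex lam R0 := heq R0 le_rfl
  have hν0 : ex mu 0 ≤ A + 2 * a * R0 + ex lam R0 := by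
    have f1 := hνtel 0 (Nat.zero_le _)
    have f2 : Ioc 0 R0 = Icc 1 R0 := by
      ext j
      simp only [mem_Ioc, mem_Icc]
      omega
    rw [f2, hE, hνR0, Nat.sub_zero] at f1
    clear * - f1
    omega
  have hνlow : ∀ i, R1 ≤ i → i ≤ R0 → ex mu i ≤ ex lam R0 + 2 * a * R0 := by
    intro i e1 e2
    have f1 := hνtel i e2
    have f2 : ∑ j ∈ Ioc i R0, e j = 0 := Finset.sum_eq_zero fun j hj => by
      rw [mem_Ioc] at hj
      rw [he, if_neg (by omega)]
    rw [f2, hνR0, Nat.zero_add] at f1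
    exact f1.trans (Nat.add_le_add_left (Nat.mul_le_mul_left _ (Nat.sub_le _ _)) _)
  have hlow0 : ∑ i, low R0 mu i = ∑ i, low R0 lam i :=
    Finset.sum_congr rfl fun i _ => heq (R0 + i) (Nat.le_add_right _ _)
  have hlow1 := low_bound' hR hRn hνlow hlow0
  have hlow8 : 8 * ∑ i, low R1 mu i ≤ N * k0 := (Nat.mul_le_mul_left 8 hlow1).trans h6
  have hNb : N ≤ b := by
    have f1 : 2 * N ≤ 50 * R0 * (R0 + 1) * N := by
      refine Nat.mul_le_mul_right _ ?_
      clear * - hR3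
      nlinarith
    clear * - f1 h8
    omega
  have hexR : ex mu R1 ≤ a * b := by
    have f1 : ex mu R1 ≤ ∑ i, low R1 mu i := by
      have g2 := H503.ex_le_sum (low R1 mu) 0
      rwa [H503.ex_low, add_zero] at g2
    have f2 : N * k0 ≤ a * b := by
      calc N * k0 ≤ b * a := Nat.mul_le_mul hNb h4
        _ = a * b := Nat.mul_comm _ _
    omega
  obtain ⟨c13, hfin⟩ := final_cmp hR hRn hnJ hmu heq hka hexR htop
  refine (hfin _ ?_).trans hle
  have hgR := (hgap R1 (by omega) hR).1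
  rw [heR] at hgR
  have hkk : N * k0 ≤ N * k := Nat.mul_le_mul_left _ hk1
  refine hLB J k B n R1 N _ mu hmu hsmu hnJ hJN (by omega) (by omega) ?_ ?_ ?_ ?_ ?_ ?_ c13
  · -- 8 r (r + 5) ≤ k
    refine le_trans ?_ (h3.trans hk1)
    calc 8 * R1 * (R1 + 5) ≤ 8 * R0 * (R0 + 5) := by gcongr
      _ = 8 * R0 ^ 2 + 40 * R0 := by ring
      _ ≤ 2000 * R0 ^ 3 := by omega
  · -- 16 r ^ 3 ≤ N
    have f1 : R1 ^ 3 ≤ R0 ^ 3 := Nat.pow_le_pow_left hR 3
    omega
  · -- gap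
    have f1 : 4 * N * k ≤ A := by
      rw [hA]
      calc 4 * N * k ≤ 4 * N * (k0 + 2 * R0) := Nat.mul_le_mul_left _ hk2
        _ ≤ 20 * N * (k0 + 2 * R0) := by
          apply Nat.mul_le_mul_right
          apply Nat.mul_le_mul_right
          norm_num
    omega
  · -- ex mu 0
    have f3 : 2 * a * R0 + ex lam R0 ≤ N * k0 := by
      have g1 : ex lam R0 ≤ R0 * ex lam R0 := Nat.le_mul_of_pos_left _ (by omega)
      have g2 : a * R0 ≤ a * R0 ^ 2 := Nat.mul_le_mul_left _ (by nlinarith)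
      have g3 : 8 * (R0 * ex lam R0 + 2 * a * R0 ^ 2 + ∑ i, low R0 lam i) =
        8 * (R0 * ex lam R0) + 16 * (a * R0 ^ 2) + 8 * ∑ i, low R0 lam i := by ring
      have g4 : 2 * a * R0 = 2 * (a * R0) := by ring
      rw [g3] at h6
      omega
    omega
  · omega
  · exact (H503.countR hm3 hm hR h3 hcount).trans (Nat.pow_le_pow_left hk1 _)

end Vale.Agent.P181.SZN3R
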