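import Vale.Agent.P181.SZN2.LBC
import Vale.Agent.P181.SZN3.LBR
import Vale.Agent.P181.SZN1.Dec
import Vale.Agent.P181.H503.TypeAll

set_option autoImplicit false

/-!
# P181, SZ: **(N2)** and **(N3)**
-/

namespace Vale.Agent.P181.SZN3

/-- **(N2)** from `DecBn` -/
theorem lbc (hDec : SZ.DecBn) : SZ.LBC := SZN2.lbc_of H503.lb10 hDec

/-- **(N3)** from `DecBn` -/
theorem lbr (hDec : SZ.DecBn) : SZ.LBR := SZN3R.lbr_of H503.lb7k hDec

/-- **(N2)** -/
theorem lbcF : SZ.LBC := lbc SZN1.decBn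

/-- **(N3)** -/
theorem lbrF : SZ.LBR := lbr SZN1.decBn

end Vale.Agent.P181.SZN3
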