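import Vale.Agent.P181.SZ.Spec2
import Vale.Agent.P181.H310.LB7k
import Vale.Agent.P181.H463.CutRevStmt

set_option autoImplicit false

/-!
# P181, SZ, (N3): the lower bound with one level, `n` rows and `J` letters
-/

open Finset

namespace Vale.Agent.P181.SZN3

open Vale.Agent.P181.T4 (ex low)
open Vale.Agent.P181.H280 (plethMult)
open Vale.Agent.P181.H463 (gt)
open Vale.Agent.P181.SZ

lemma ex_anti {n : ℕ} {lam : Fin n → ℕ} (h : Antitone lam) : Antitone (ex lam) := by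
  intro i j hij
  unfold ex
  split_ifs with h1 h2
  · exact h hij
  · omega
  · exact Nat.zero_le _
  · exact le_refl _

lemma ex_of_lt {n : ℕ} (lam : Fin n → ℕ) {i : ℕ} (h : i < n) : ex lam i = lam ⟨i, h⟩ := by
  unfold ex
  rw [dif_pos h]

lemma ex_low {n R i : ℕ} (lam : Fin n → ℕ) : ex (low R lam) i = ex lam (R + i) := by
  unfold ex low
  by_cases h : i < n - R
  · rw [dif_pos h, dif_pos (by omega)]
    simp only [ex]
    rw [dif_pos (by omega)]
  · rw [dif_neg h, dif_neg (by omega)]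

lemma low_anti {n : ℕ} {lam : Fin n → ℕ} (h : Antitone lam) (R : ℕ) : Antitone (low R lam) := by
  intro i j hij
  apply ex_anti h
  have : (i : ℕ) ≤ j := hij
  omega

lemma gt_congr {n m a : ℕ} {f : Fin n → ℕ} {g : Fin m → ℕ} (h : n = m)
    (hfg : ∀ i, ex f i = ex g i) : gt n a f = gt m a g := by
  subst h
  congr 1
  funext i
  have := hfg i
  rwa [ex_of_lt f i.2, ex_of_lt g i.2] at this

lemma sum_low {n : ℕ} (R : ℕ) (lam : Fin n → ℕ) :
    ∑ i, low R lam i = ∑ s ∈ Ico R n, ex lam s := by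
  unfold low
  rw [Fin.sum_univ_eq_sum_range (fun i => ex lam (R + i)) (n - R), Finset.sum_Ico_eq_sum_range]

lemma lower_cmp {n J R r M : ℕ} (hr : r ≤ R) (hR : R ≤ n) (hnJ : n ≤ J) {lam mu : Fin n → ℕ}
    (hmu : Antitone mu) (heq : ∀ s, R ≤ s → ex mu s = ex lam s) (hM : ex mu r ≤ M) :
    gt (n - R) J (low R lam) ≤ (M + 1) ^ (J * (R - r)) * gt (n - r) J (low r mu) := by
  have h1 := H463.cut_rev (a := J) (n := n - r) (R := R - r) (by omega) (by omega)
    (low_anti hmu r)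
  have h2 : gt (n - r - (R - r)) J (low (R - r) (low r mu)) = gt (n - R) J (low R lam) := by
    apply gt_congr (by omega)
    intro i
    rw [ex_low, ex_low, ex_low, ← heq (R + i) (by omega)]
    congr 1
    omega
  rw [h2] at h1
  refine h1.trans (Nat.mul_le_mul_right _ (Nat.pow_le_pow_left ?_ _))
  rw [ex_low, add_zero]
  omega

lemma tel_le (ν f : ℕ → ℕ) (c R : ℕ) (i : ℕ) (hi : i ≤ R)
    (h : ∀ j, i < j → j ≤ R → ν (j - 1) ≤ ν j + f j + c) :
    ν i ≤ ν R + (∑ j ∈ Ioc i R, f j + c * (R - i)) := by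
  obtain ⟨d, rfl⟩ := Nat.exists_eq_add_of_le hi
  clear hi
  induction d with
  | zero => simp
  | succ d ih =>
    have h1 := ih fun j h2 h3 => h j h2 (by omega)
    have h2 := h (i + d + 1) (by omega) (by omega)
    have e1 : i + (d + 1) = i + d + 1 := by ring
    rw [e1, Finset.sum_Ioc_succ_top (by omega)]
    have e2 : i + d + 1 - 1 = i + d := by omega
    rw [e2] at h2
    have e3 : i + d - i = d := by omega
    have e4 : i + d + 1 - i = d + 1 := by omega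
    rw [e3] at h1
    rw [e4, Nat.mul_add, Nat.mul_one]
    omega

/-- the count hypothesis of `lb7k` (copy of `H503.countR`) -/
lemma countR {m R0 R1 N k0 : ℕ} {v : ℕ → ℕ} (hm : 3 ≤ m) (hmR : m ≤ R1) (hRR : R1 ≤ R0)
    (h3 : 2000 * R0 ^ 3 ≤ k0)
    (hcount : 729 * N < ∏ i ∈ Finset.Ico 1 m,
      (min (v i / (32 * R0 ^ 2 * N)) (k0 / (256 * R0 ^ 2)) + 1)) :
    2000 * (64 * R1 ^ 2) ^ (R1 - 1) * N ≤ k0 ^ (R1 - 1) := by
  obtain ⟨q, hq⟩ : ∃ q, q = k0 / (256 * R0 ^ 2) := ⟨_, rfl⟩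
  rw [← hq] at hcount
  have hR0 : 1 ≤ R0 := by omega
  have hR2 : R0 ^ 2 ≤ R0 ^ 3 := Nat.pow_le_pow_right hR0 (by norm_num)
  have hR2' : 1 ≤ R0 ^ 2 := Nat.one_le_pow _ _ hR0
  have hq1 : 1 ≤ q := by
    rw [hq, Nat.le_div_iff_mul_le (by positivity)]
    omega
  -- one factor
  have h4 : 64 * R1 ^ 2 * (2 * (q + 1)) ≤ k0 := by
    have h5 : q * (256 * R0 ^ 2) ≤ k0 := by rw [hq]; exact Nat.div_mul_le_self _ _
    have h6 : R1 ^ 2 ≤ R0 ^ 2 := Nat.pow_le_pow_left hRR 2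
    calc 64 * R1 ^ 2 * (2 * (q + 1)) ≤ 64 * R0 ^ 2 * (2 * (q + q)) := by
          apply Nat.mul_le_mul (Nat.mul_le_mul_left _ h6)
          omega
      _ = q * (256 * R0 ^ 2) := by ring
      _ ≤ k0 := h5
  have h5 : ∏ i ∈ Finset.Ico 1 m, (min (v i / (32 * R0 ^ 2 * N)) q + 1) ≤ (q + 1) ^ (m - 1) := by
    calc ∏ i ∈ Finset.Ico 1 m, (min (v i / (32 * R0 ^ 2 * N)) q + 1)
        ≤ ∏ _i ∈ Finset.Ico 1 m, (q + 1) :=
          Finset.prod_le_prod' (fun i _ => Nat.add_le_add_right (min_le_right _ _) 1)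
      _ = (q + 1) ^ (m - 1) := by rw [Finset.prod_const, Nat.card_Ico]
  have h6 : 729 * N ≤ (q + 1) ^ (m - 1) := hcount.le.trans h5
  have h7 : (q + 1) ^ (m - 1) ≤ (q + 1) ^ (R1 - 1) := Nat.pow_le_pow_right (by omega) (by omega)
  have h8 : 4 ≤ 2 ^ (R1 - 1) := by
    calc 4 = 2 ^ 2 := by norm_num
      _ ≤ 2 ^ (R1 - 1) := Nat.pow_le_pow_right (by norm_num) (by omega)
  calc 2000 * (64 * R1 ^ 2) ^ (R1 - 1) * N = (64 * R1 ^ 2) ^ (R1 - 1) * (2000 * N) := by ring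
    _ ≤ (64 * R1 ^ 2) ^ (R1 - 1) * (4 * (729 * N)) := by
      apply Nat.mul_le_mul_left
      omega
    _ ≤ (64 * R1 ^ 2) ^ (R1 - 1) * (2 ^ (R1 - 1) * (q + 1) ^ (R1 - 1)) := by
      apply Nat.mul_le_mul_left
      exact Nat.mul_le_mul h8 (h6.trans h7)
    _ = (64 * R1 ^ 2 * (2 * (q + 1))) ^ (R1 - 1) := by
      rw [← mul_pow, ← mul_pow]
    _ ≤ k0 ^ (R1 - 1) := Nat.pow_le_pow_left h4 _

/-- **(N3)** from **(N1)**. -/
theorem lbr_of (hD : DecBn) : LBR := by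
  intro a b n J R0 R1 m k0 N T lam hlam hsum hm hmR hRR hRn hnJ hJN hgap hk0 hka haN hZ hb
    hcount htop
  have hR3 : 3 ≤ R0 := by omega
  have p1 : R0 ≤ R0 ^ 3 := Nat.le_self_pow (by norm_num) _
  have p2 : R0 ^ 2 ≤ R0 ^ 3 := Nat.pow_le_pow_right (by omega) (by norm_num)
  have p3 : R0 ≤ R0 ^ 2 := Nat.le_self_pow (by norm_num) _
  have p4 : a * R0 ≤ a * R0 ^ 2 := Nat.mul_le_mul_left _ p3
  have q1 : 2000 * R0 ≤ k0 := by omega
  have q2 : a * (R0 + 1) = a * R0 + a := by ring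
  have haN' : a ≤ N := by
    have := Nat.zero_le (a * R0)
    omega
  have haR : a * R0 ≤ N := by omega
  have hN1 : 1 ≤ N := by omega
  -- the numbers
  obtain ⟨E, hE⟩ : ∃ E, E = 4 * N * (k0 + 2 * R0) := ⟨_, rfl⟩
  obtain ⟨e, he⟩ : ∃ e : ℕ → ℕ, ∀ j, e j = if j = R1 then E else 0 := ⟨_, fun _ => rfl⟩
  obtain ⟨M0, hM0⟩ : ∃ M0, M0 = ex lam R0 := ⟨_, rfl⟩
  obtain ⟨D, hDD⟩ : ∃ D, D = ∑ i, low R0 lam i := ⟨_, rfl⟩
  rw [← hM0, ← hDD] at hZ
  have heR : e R1 = E := by rw [he, if_pos rfl]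
  have hsume : ∑ j ∈ Icc 1 R0, j * e j = R1 * E := by
    rw [Finset.sum_eq_single_of_mem R1 (by rw [mem_Icc]; omega)
      (fun j _ hj => by rw [he, if_neg hj, Nat.mul_zero]), heR]
  obtain ⟨NK, hNK⟩ : ∃ NK, NK = N * k0 := ⟨_, rfl⟩
  have hNR : N * (2000 * R0) ≤ NK := by
    rw [hNK]
    exact Nat.mul_le_mul_left _ q1
  have hNR' : N * (2000 * R0) = 2000 * (N * R0) := by ring
  have hNk : N ≤ NK := by
    rw [hNK]
    exact Nat.le_mul_of_pos_right _ (by omega)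
  have hkN : k0 ≤ NK := by
    rw [hNK]
    exact Nat.le_mul_of_pos_left _ hN1
  have hE' : E = 4 * NK + 8 * (N * R0) := by
    rw [hE, hNK]
    ring
  have hM0' : M0 ≤ R0 * M0 := Nat.le_mul_of_pos_left _ (by omega)
  have hexp : 8 * (R0 * M0 + 2 * a * R0 ^ 2 + D) = 8 * (R0 * M0) + 16 * (a * R0 ^ 2) + 8 * D := by
    ring
  rw [hexp, ← hNK] at hZ
  obtain ⟨B, k, mu, hmu, hsmu, hk1, hk2, hka', heq, hgaps, hle⟩ := hD a b n R0 (50 * R0 * N) k0 e
    lam hlam hsum (by omega) hRn (by omega) (by omega) (by omega)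
    (by
      calc R0 = R0 * 1 := (Nat.mul_one _).symm
        _ ≤ R0 * (50 * N) := Nat.mul_le_mul_left _ (by omega)
        _ = 50 * R0 * N := by ring)
    (by
      intro j h1 h2
      by_cases hj : j = R1
      · subst hj
        rw [heR, hE]
        have e1 : 20 * N * (k0 + 2 * R0) = 5 * (4 * N * (k0 + 2 * R0)) := by ring
        omega
      · rw [he, if_neg hj, Nat.zero_add]
        exact ex_anti hlam (Nat.sub_le _ _))
    (by
      rw [hsume, ← hM0, ← hDD]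
      have f1 : R1 * E ≤ R0 * E := Nat.mul_le_mul_right _ hRR
      have f2 : R0 * E ≤ R0 * (5 * NK) := Nat.mul_le_mul_left _ (by omega)
      have f3 : R0 * (5 * NK) = 5 * (R0 * NK) := by ring
      have f4 : k0 * (50 * R0 * N) = 50 * (R0 * NK) := by
        rw [hNK]
        ring
      have f5 : 3 * NK ≤ R0 * NK := Nat.mul_le_mul_right _ hR3
      have f6 : 2 * a * R0 ^ 2 = 2 * (a * R0 ^ 2) := by ring
      rw [f4, f6]
      omega)
    (by
      have f1 : (R0 + 1) * (50 * R0 * N) = 50 * R0 * (R0 + 1) * N := by ring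
      rw [f1]
      exact hb)
    (by
      rw [hsume, hE]
      calc (k0 + 2 * R0) * R0 ≤ (k0 + 2 * R0) * (4 * N) := by
            apply Nat.mul_le_mul_left
            omega
        _ = 4 * N * (k0 + 2 * R0) := by ring
        _ ≤ R1 * (4 * N * (k0 + 2 * R0)) := Nat.le_mul_of_pos_left _ (by omega))
  have hmuR : ex mu R0 = M0 := by rw [heq R0 le_rfl, hM0]
  -- the telescopes
  have hmid : ∀ s, R1 ≤ s → s ≤ R0 → ex mu s ≤ M0 + 2 * a * R0 := by
    intro s h1 h2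
    have h3 := tel_le (ex mu) e (2 * a) R0 s h2 (fun j h4 h5 => (hgaps j (by omega) h5).2)
    have h4 : ∑ j ∈ Ioc s R0, e j = 0 := by
      refine Finset.sum_eq_zero fun j hj => ?_
      rw [mem_Ioc] at hj
      rw [he, if_neg (by omega)]
    rw [h4, hmuR] at h3
    have h5 : 2 * a * (R0 - s) ≤ 2 * a * R0 := Nat.mul_le_mul_left _ (Nat.sub_le _ _)
    omega
  have h00 : ex mu 0 ≤ M0 + E + 2 * a * R0 := by
    have h3 := tel_le (ex mu) e (2 * a) R0 0 (Nat.zero_le _)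
      (fun j h4 h5 => (hgaps j (by omega) h5).2)
    have h4 : ∑ j ∈ Ioc 0 R0, e j = E := by
      rw [Finset.sum_eq_single_of_mem R1 (by rw [mem_Ioc]; omega)
        (fun j _ hj => by rw [he, if_neg hj]), heR]
    rw [h4, hmuR, Nat.sub_zero] at h3
    omega
  have haR2 : 2 * a * R0 = 2 * (a * R0) := by ring
  have hgR := (hgaps R1 (by omega) hRR).1
  rw [heR] at hgR
  -- the hypotheses of the lower bound
  have c1 : 8 * R1 * (R1 + 5) ≤ k := by
    calc 8 * R1 * (R1 + 5) ≤ 8 * R0 * (R0 + 5) :=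
          Nat.mul_le_mul (Nat.mul_le_mul_left _ hRR) (by omega)
      _ = 8 * R0 ^ 2 + 40 * R0 := by ring
      _ ≤ k := by omega
  have c2 : 16 * R1 ^ 3 ≤ N := by
    have : R1 ^ 3 ≤ R0 ^ 3 := Nat.pow_le_pow_left hRR 3
    omega
  have c3 : ex mu R1 + 4 * N * k ≤ ex mu (R1 - 1) := by
    have h1 : 4 * N * k ≤ 4 * N * (k0 + 2 * R0) := Nat.mul_le_mul_left _ hk2
    omega
  have c4 : ex mu 0 ≤ 2 * (ex mu (R1 - 1) - ex mu R1) := by
    have h1 : E ≤ ex mu (R1 - 1) - ex mu R1 := by omega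
    omega
  have c5 : 2 * ∑ i, low R1 mu i ≤ N * k := by
    have h1 : ∑ i, low R1 mu i ≤ R0 * (M0 + 2 * a * R0) + D := by
      rw [sum_low, ← Finset.sum_Ico_consecutive _ hRR hRn.le]
      refine Nat.add_le_add ?_ (le_of_eq ?_)
      · refine (Finset.sum_le_card_nsmul _ _ (M0 + 2 * a * R0) fun s hs => ?_).trans ?_
        · rw [mem_Ico] at hs
          exact hmid s hs.1 (by omega)
        · rw [smul_eq_mul, Nat.card_Ico]
          exact Nat.mul_le_mul_right _ (Nat.sub_le _ _)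
      · rw [hDD, sum_low]
        refine Finset.sum_congr rfl fun s hs => ?_
        rw [mem_Ico] at hs
        exact heq s hs.1
    have h2 : R0 * (M0 + 2 * a * R0) = R0 * M0 + 2 * (a * R0 ^ 2) := by ring
    have h3 : NK ≤ N * k := by
      rw [hNK]
      exact Nat.mul_le_mul_left _ hk1
    omega
  have c6 : 2000 * (64 * R1 ^ 2) ^ (R1 - 1) * N ≤ k ^ (R1 - 1) :=
    (countR hm hmR hRR hk0 hcount).trans (Nat.pow_le_pow_left hk1 _)
  obtain ⟨top, htp⟩ : ∃ top : ℕ, top = T * (a * b + 1) ^ (J * (R0 - R1)) := ⟨_, rfl⟩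
  have c7 : (top : ℝ) * ((k : ℝ) + 1) ^ J ≤ Real.exp N := by
    refine le_trans ?_ htop
    have h5 : (k : ℝ) ≤ a := by exact_mod_cast hka'
    rw [htp, Nat.cast_mul, Nat.cast_pow, Nat.cast_add, Nat.cast_one]
    have h6 : (((a * b : ℕ) : ℝ) + 1) ^ (J * (R0 - R1)) ≤ (((a * b : ℕ) : ℝ) + 1) ^ (J * R0) := by
      apply pow_le_pow_right₀
      · have : (0 : ℝ) ≤ ((a * b : ℕ) : ℝ) := Nat.cast_nonneg _
        linarith
      · exact Nat.mul_le_mul_left _ (Nat.sub_le _ _)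
    gcongr
  have h8 := H310.lb7k_full J k B n R1 N top mu hmu hsmu hnJ hJN (by omega) (by omega) c1 c2 c3 c4
    c5 c6 c7
  -- the comparison
  have hNb : N ≤ b := by
    have h1 : 50 * R0 * (R0 + 1) * N = 50 * (R0 * (R0 + 1) * N) := by ring
    have h2 : N ≤ R0 * (R0 + 1) * N := Nat.le_mul_of_pos_left _ (by positivity)
    omega
  have hM : ex mu R1 ≤ a * b := by
    have h1 := hmid R1 le_rfl hRR
    have h2 : NK ≤ a * b := by
      rw [hNK, Nat.mul_comm N k0]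
      exact Nat.mul_le_mul (by omega) hNb
    omega
  have h9 := lower_cmp (J := J) hRR hRn.le hnJ hmu heq hM
  calc T * gt (n - R0) J (low R0 lam)
      ≤ T * ((a * b + 1) ^ (J * (R0 - R1)) * gt (n - R1) J (low R1 mu)) :=
        Nat.mul_le_mul_left _ h9
    _ = top * gt (n - R1) J (low R1 mu) := by rw [htp, mul_assoc]
    _ ≤ plethMult B k n mu := h8
    _ ≤ plethMult b a n lam := hle

end Vale.Agent.P181.SZN3
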